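import Vale.Agent.P359.Mom.Pins

/-!
# P359: antisymmetric tuple functions as functions of sets
-/

noncomputable section

open Finset Function Equiv

namespace Vale.Agent.P359.Mom

variable {n k : ℕ}

/-- Antisymmetry of a function of tuples. -/
def Anti (F : (Fin n → ℕ) → ℝ) : Prop :=
  ∀ (π : Perm (Fin n)) (x : Fin n → ℕ), F (x ∘ π) = ((π.sign : ℤ) : ℝ) * F x

/-- The tuple `y` followed by `x`. -/
def app (y : Fin k → ℕ) (x : Fin n → ℕ) : Fin (n + k) → ℕ :=
  Fin.append y x ∘ Fin.cast (Nat.add_comm n k)

lemma app_zero (y : Fin 0 → ℕ) (x : Fin n → ℕ) : app y x = x := by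
  funext p
  show Fin.append y x (Fin.cast (Nat.add_comm n 0) p) = x p
  rw [show Fin.cast (Nat.add_comm n 0) p = Fin.natAdd 0 p from Fin.ext (by simp), Fin.append_right]

lemma app_cons (a : ℕ) (y : Fin k → ℕ) (x : Fin n → ℕ) :
    app (Fin.cons a y) x = Fin.cons a (app y x) := by
  funext p
  refine Fin.cases ?_ (fun q => ?_) p
  · simp [app, Fin.append_cons, Fin.cast]
  · simp only [app, Fin.append_cons, comp_apply, Fin.cons_succ]
    rw [show Fin.cast (Nat.add_right_comm k 1 n) (Fin.cast (Nat.add_comm n (k + 1)) q.succ)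
      = Fin.succ (Fin.cast (Nat.add_comm n k) q) from Fin.ext (by simp), Fin.cons_succ]

lemma anti_cons {F : (Fin (n + 1) → ℕ) → ℝ} (hF : Anti F) (a : ℕ) :
    Anti fun x => F (Fin.cons a x) := by
  intro e x
  have he : Fin.cons a (x ∘ e)
      = Fin.cons a x ∘ Perm.decomposeFin.symm ((0 : Fin (n + 1)), e) := by
    funext p
    induction p using Fin.cases with
    | zero => simp
    | succ q => simp
  show F (Fin.cons a (x ∘ e)) = _
  rw [he, hF]
  simp [Equiv.Perm.decomposeFin.symm_sign]

lemma anti_app {F : (Fin (n + k) → ℕ) → ℝ} (hF : Anti F) (x : Fin n → ℕ) :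
    Anti fun y : Fin k → ℕ => F (app y x) := by
  intro π y
  set h := Nat.add_comm n k
  set π₀ : Perm (Fin (k + n)) := finSumFinEquiv.permCongr (Equiv.sumCongr π 1) with hπ
  set π' : Perm (Fin (n + k)) := (finCongr h).symm.permCongr π₀ with hπ'
  have hcomp : app (y ∘ π) x = app y x ∘ π' := by
    have h0 : Fin.append (y ∘ π) x = Fin.append y x ∘ π₀ := by
      funext p
      refine Fin.addCases (fun i => ?_) (fun i => ?_) p <;> simp [hπ]
    funext p
    simp [app, h0, hπ', Equiv.permCongr_apply, finCongr]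
  have hsign : π'.sign = π.sign := by
    rw [hπ', Perm.sign_permCongr, hπ, Perm.sign_permCongr, Perm.sign_sumCongr, map_one, mul_one]
  show F (app (y ∘ π) x) = _
  rw [hcomp, hF, hsign]

lemma anti_zero {F : (Fin n → ℕ) → ℝ} (hF : Anti F) {x : Fin n → ℕ} (hx : ¬ Injective x) :
    F x = 0 := by
  simp only [Injective, not_forall] at hx
  obtain ⟨p, q, hxy, hpq⟩ := hx
  have := hF (swap p q) x
  rw [Equiv.comp_swap_eq_update, hxy, update_eq_self, ← hxy, update_eq_self, Perm.sign_swap hpq]
    at this
  simp at this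
  linarith

lemma onSet_eq (g : (Fin k → ℕ) → ℝ) {A : Finset ℕ} (h : A.card = k) :
    onSet g A = g (A.orderEmbOfFin h) := dif_pos h

lemma onSet_of_ne (g : (Fin k → ℕ) → ℝ) {A : Finset ℕ} (h : A.card ≠ k) : onSet g A = 0 :=
  dif_neg h

lemma setSign_eq (A R : Finset ℕ) :
    setSign A R = (-1) ^ ∑ a ∈ A, (R.filter fun u => u < a).card := by
  rw [setSign, card_filter, sum_product]
  simp only [card_filter]

lemma setSign_insert {a : ℕ} {A : Finset ℕ} (ha : a ∉ A) (R : Finset ℕ) :
    setSign (insert a A) R = (-1) ^ (R.filter fun u => u < a).card * setSign A R := by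
  rw [setSign_eq, setSign_eq, sum_insert ha, pow_add]

/-- One particle inserted into an ordered set. -/
lemma cons_enum {F : (Fin (n + 1) → ℕ) → ℝ} (hF : Anti F) (a : ℕ) {S : Finset ℕ}
    (hS : S.card = n) :
    F (Fin.cons a (S.orderEmbOfFin hS)) = if a ∈ S then 0
      else (-1) ^ (S.filter fun u => u < a).card * onSet F (insert a S) := by
  split_ifs with ha
  · refine anti_zero hF fun hinj => ?_
    obtain ⟨i, hi⟩ : a ∈ Set.range (S.orderEmbOfFin hS) := by simpa using ha
    exact Fin.succ_ne_zero i (hinj (by simp [hi]))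
  have hT : (insert a S).card = n + 1 := by rw [card_insert_of_notMem ha, hS]
  set t := (insert a S).orderEmbOfFin hT with ht
  obtain ⟨p, hp⟩ : a ∈ Set.range t := by rw [ht, Finset.range_orderEmbOfFin]; simp
  have hrest : (fun i => t (p.succAbove i)) = ⇑(S.orderEmbOfFin hS) := by
    refine orderEmbOfFin_unique hS (fun i => ?_) (t.strictMono.comp (Fin.strictMono_succAbove p))
    have hm : t (p.succAbove i) ∈ insert a S := orderEmbOfFin_mem _ hT _
    have hne : t (p.succAbove i) ≠ a := fun h =>
      Fin.succAbove_ne p i (t.injective (h.trans hp.symm))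
    simpa [hne] using hm
  have hcard : (S.filter fun u => u < a).card = (p : ℕ) := by
    rw [← Fin.card_Iio p]
    symm
    refine card_bij (fun i _ => t i) (fun i hi => ?_) (fun i _ j _ h => t.injective h) ?_
    · have hlt : t i < a := hp ▸ t.strictMono (mem_Iio.1 hi)
      have hm : t i ∈ insert a S := orderEmbOfFin_mem _ hT _
      simpa [hlt, hlt.ne] using hm
    · intro u hu
      rw [mem_filter] at hu
      obtain ⟨i, hi⟩ : u ∈ Set.range t := by rw [ht, Finset.range_orderEmbOfFin]; simp [hu.1]
      exact ⟨i, mem_Iio.2 (t.lt_iff_lt.1 (by rw [hi, hp]; exact hu.2)), hi⟩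
  have he : Fin.cons a (S.orderEmbOfFin hS) = ⇑t ∘ p.cycleRange.symm := by
    funext q
    refine Fin.cases ?_ (fun i => ?_) q
    · simp [hp]
    · simp [← hrest]
  rw [he, hF, onSet_eq F hT, hcard]
  simp [ht]

/-- An ordered set in front of another one. -/
lemma app_enum : ∀ (k : ℕ) {F : (Fin (n + k) → ℕ) → ℝ}, Anti F → ∀ {A S : Finset ℕ}
    (hA : A.card = k) (hS : S.card = n), F (app (A.orderEmbOfFin hA) (S.orderEmbOfFin hS))
      = if Disjoint A S then setSign A S * onSet F (A ∪ S) else 0 := by
  intro k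
  induction k with
  | zero =>
    intro F _ A S hA hS
    obtain rfl := card_eq_zero.1 hA
    rw [app_zero, if_pos (disjoint_empty_left S), setSign_eq]
    simp [onSet_eq F hS]
  | succ k ih =>
    intro F hF A S hA hS
    set e := A.orderEmbOfFin hA with he
    set a := e 0
    have haA : a ∈ A := orderEmbOfFin_mem _ hA _
    have hA' : (A.erase a).card = k := by rw [card_erase_of_mem haA, hA]; rfl
    have hlt : ∀ u ∈ A.erase a, a < u := fun u hu => by
      obtain ⟨i, hi⟩ : u ∈ Set.range e := by
        rw [he, Finset.range_orderEmbOfFin]; exact mem_of_mem_erase hu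
      rcases Fin.eq_zero_or_eq_succ i with rfl | ⟨j, rfl⟩
      · exact absurd hi.symm (ne_of_mem_erase hu)
      · exact hi ▸ e.strictMono (Fin.succ_pos j)
    have htail : (fun i : Fin k => e i.succ) = ⇑((A.erase a).orderEmbOfFin hA') :=
      orderEmbOfFin_unique hA' (fun i => mem_erase.2 ⟨fun h => Fin.succ_ne_zero i (e.injective h),
        orderEmbOfFin_mem _ hA _⟩) (e.strictMono.comp (Fin.strictMono_succ))
    rw [show (⇑e : Fin (k + 1) → ℕ) = Fin.cons a (fun i => e i.succ) from
      (Fin.cons_self_tail _).symm, htail, app_cons]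
    rw [ih (anti_cons hF a) hA' hS]
    by_cases hd : Disjoint A S
    · have hd' : Disjoint (A.erase a) S := hd.mono_left (erase_subset _ _)
      have haS : a ∉ S := disjoint_left.1 hd haA
      have hT : ((A.erase a) ∪ S).card = n + k := by
        rw [card_union_of_disjoint hd', hA', hS, add_comm]
      rw [if_pos hd, if_pos hd', onSet_eq _ hT, cons_enum hF a hT, if_neg (by simp [haS]),
        ← insert_union, insert_erase haA]
      have hfl : ((A.erase a) ∪ S).filter (fun u => u < a) = S.filter fun u => u < a := by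
        rw [filter_union, filter_false_of_mem fun u hu => not_lt.2 (hlt u hu).le, empty_union]
      rw [hfl]
      conv_rhs => rw [← insert_erase haA, setSign_insert (notMem_erase a A), insert_erase haA]
      ring
    · rw [if_neg hd]
      split_ifs with hd'
      · have haS : a ∈ S := by
          by_contra h
          exact hd (by rw [← insert_erase haA]; exact disjoint_insert_left.2 ⟨h, hd'⟩)
        have hT : ((A.erase a) ∪ S).card = n + k := by
          rw [card_union_of_disjoint hd', hA', hS, add_comm]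
        rw [onSet_eq _ hT, cons_enum hF a hT, if_pos (by simp [haS]), mul_zero]
      · rfl

/-- Sums over tuples as sums over sets and permutations. -/
lemma sum_tuples (Q : ℕ) (F : (Fin k → ℕ) → ℝ) (hF : ∀ x, ¬ Injective x → F x = 0) :
    ∑ x : Upper.Orbs k Q, F (fun i => (x i : ℕ))
      = ∑ A ∈ (range (Q + 1)).powersetCard k,
          onSet (fun y => ∑ π : Perm (Fin k), F (y ∘ π)) A := by
  classical
  set I : Finset (Upper.Orbs k Q) := univ.filter fun x => Injective x
  have hI : ∑ x : Upper.Orbs k Q, F (fun i => (x i : ℕ)) = ∑ x ∈ I, F (fun i => (x i : ℕ)) := by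
    refine (sum_subset (subset_univ I) fun x _ hx => hF _ fun h => hx ?_).symm
    exact mem_filter.2 ⟨mem_univ _, fun p q hpq => h (congrArg Fin.val hpq)⟩
  have hmap : ∀ x ∈ I, univ.image (fun i => (x i : ℕ)) ∈ (range (Q + 1)).powersetCard k := by
    intro x hx
    refine mem_powersetCard.2 ⟨fun u hu => ?_, ?_⟩
    · obtain ⟨i, _, rfl⟩ := mem_image.1 hu
      exact mem_range.2 (x i).2
    · rw [card_image_of_injective _ fun p q hpq => (mem_filter.1 hx).2 (Fin.ext hpq), card_univ,
        Fintype.card_fin]
  rw [hI, ← sum_fiberwise_of_maps_to hmap]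
  refine sum_congr rfl fun A hA => ?_
  obtain ⟨hsub, hcard⟩ := mem_powersetCard.1 hA
  rw [onSet_eq _ hcard]
  set e := A.orderEmbOfFin hcard with he
  have hb : ∀ i, e i < Q + 1 := fun i => mem_range.1 (hsub (orderEmbOfFin_mem _ hcard i))
  symm
  refine sum_bij (fun π _ => fun i => (⟨e (π i), hb _⟩ : Fin (Q + 1))) ?_ ?_ ?_ ?_
  · intro π _
    refine mem_filter.2 ⟨mem_filter.2 ⟨mem_univ _, fun p q h => π.injective (e.injective ?_)⟩, ?_⟩
    · exact congrArg Fin.val h
    · ext u
      simp only [mem_image, mem_univ, true_and]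
      constructor
      · rintro ⟨i, rfl⟩
        exact orderEmbOfFin_mem _ hcard _
      · intro hu
        obtain ⟨j, hj⟩ : u ∈ Set.range e := by rw [he, Finset.range_orderEmbOfFin]; simpa using hu
        exact ⟨π.symm j, by simpa using hj⟩
  · intro π _ π' _ h
    ext i
    exact congrArg Fin.val (e.injective (congrArg Fin.val (congrFun h i)))
  · intro x hx
    obtain ⟨hx, himg⟩ := mem_filter.1 hx
    have hex : ∀ i, ∃ j, e j = (x i : ℕ) := fun i => by
      have : (x i : ℕ) ∈ Set.range e := by
        rw [he, Finset.range_orderEmbOfFin, ← himg]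
        simp
      exact this
    choose σ hσ using hex
    have hinj : Injective σ := fun p q h => (mem_filter.1 hx).2 (Fin.ext (by rw [← hσ, ← hσ, h]))
    exact ⟨Equiv.ofBijective σ (Finite.injective_iff_bijective.1 hinj), mem_univ _,
      funext fun i => Fin.ext (hσ i)⟩
  · intro π _
    rfl

end Vale.Agent.P359.Mom
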